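import Vale.Agent.Lib.P089.AM.Bridge
import Vale.Agent.Lib.P089.AM.Final

/-!
# P089: the Baum-Connes assembly map (trivial coefficients, degree 0) of a finitely generated
group need not be surjective
-/

namespace Vale.Agent.Results.P089.AssemblyNotOnto

/-- **There is a finitely generated group `G` whose Baum-Connes assembly map
`lim_F K_0(C*_L(P_F(G))^G) → K_0(C*_r(G))` is not surjective.** -/
theorem result : ∃ (G : Type) (_ : Group G), Group.FG G ∧
    ¬ Function.Surjective (P089.Asm.assembly G) := by
  obtain ⟨G, iG, hG, h⟩ := P089.AM.final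
  exact ⟨G, iG, hG, fun hs => h (P089.Asm.bridge G hs)⟩

end Vale.Agent.Results.P089.AssemblyNotOnto
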