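import Vale.Agent.Lib.P089.Main

/-!
# P089: a finitely generated group whose reduced group C*-algebra contains a projection with
irrational canonical trace

By a published theorem of Lück (Invent. Math. 149, 2002), if the Baum-Connes assembly map
`μ_0^G` is surjective then the canonical trace takes rational values on `K_0(C_r^*(G))`.
So for the group below `μ_0^G` is not surjective, and the Baum-Connes conjecture is false.
-/

namespace Vale.Agent.Results.P089.IrrationalTrace

noncomputable section

open scoped Classical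

/-- the Hilbert space `ℓ²(G)` -/
abbrev L2 (G : Type) : Type := lp (fun _ : G => ℂ) 2

/-- bounded operators on `ℓ²(G)` -/
abbrev Op (G : Type) : Type := L2 G →L[ℂ] L2 G

/-- the value `T ξ` of an operator -/
def ap {G : Type} (T : Op G) (ξ : L2 G) : L2 G := T ξ

/-- the inner product `⟨ξ, η⟩` of `ℓ²(G)` -/
def ip {G : Type} (ξ η : L2 G) : ℂ := inner ℂ ξ η

/-- the basis vector `δ_g` of `ℓ²(G)` -/
def delta {G : Type} (g : G) : L2 G := lp.single 2 g (1 : ℂ)

/-- `T` is the operator of the element `Σ_g c(g) g` of the group ring `ℂ[G]` in the left regular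
representation: `(T ξ)(h) = Σ_g c(g) ξ(g⁻¹ h)` -/
def IsGroupRingElement {G : Type} [Group G] (T : Op G) : Prop :=
  ∃ c : G →₀ ℂ, ∀ (ξ : L2 G) (h : G), ap T ξ h = c.sum fun g a => a * ξ (g⁻¹ * h)

/-- the reduced group C*-algebra `C_r^*(G)`: the operator norm closure of the group ring -/
def ReducedCStar (G : Type) [Group G] : Set (Op G) := closure {T | IsGroupRingElement T}

/-- `p` is idempotent: `p² = p` -/
def IsIdem {G : Type} (p : Op G) : Prop := ∀ ξ : L2 G, ap p (ap p ξ) = ap p ξ

/-- `p` is self-adjoint: `⟨p ξ, η⟩ = ⟨ξ, p η⟩` -/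
def IsSelfAdj {G : Type} (p : Op G) : Prop := ∀ ξ η : L2 G, ip (ap p ξ) η = ip ξ (ap p η)

/-- the canonical trace `a ↦ ⟨δ_1, a δ_1⟩` -/
def canonicalTrace {G : Type} [Group G] (a : Op G) : ℂ := ip (delta 1) (ap a (delta 1))

/-- every left translation exists as a bounded operator, and is a group ring element -/
theorem isGroupRingElement_lam {G : Type} [Group G] (g : G) :
    IsGroupRingElement (P089.lam g) := by
  refine ⟨Finsupp.single g 1, fun ξ h => ?_⟩
  rw [Finsupp.sum_single_index (by rw [zero_mul]), one_mul]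
  exact P089.lam_apply g ξ h

theorem isGroupRingElement_of_mem {G : Type} [Group G] (T : Op G)
    (hT : T ∈ Submodule.span ℂ (Set.range (P089.lam : G → Op G))) : IsGroupRingElement T := by
  induction hT using Submodule.span_induction with
  | mem x hx =>
    obtain ⟨g, rfl⟩ := hx
    exact isGroupRingElement_lam g
  | zero =>
    refine ⟨0, fun ξ h => ?_⟩
    rw [Finsupp.sum_zero_index]
    rfl
  | add x y _ _ hx hy =>
    obtain ⟨c, hc⟩ := hx
    obtain ⟨c', hc'⟩ := hy
    refine ⟨c + c', fun ξ h => ?_⟩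
    rw [Finsupp.sum_add_index' (fun g => by rw [zero_mul]) (fun g a b => by rw [add_mul]),
      ← hc ξ h, ← hc' ξ h]
    rfl
  | smul a x _ hx =>
    obtain ⟨c, hc⟩ := hx
    refine ⟨a • c, fun ξ h => ?_⟩
    rw [Finsupp.sum_smul_index (fun g => by rw [zero_mul])]
    have h1 : ap (a • x) ξ h = a * ap x ξ h := rfl
    rw [h1, hc ξ h, Finsupp.sum, Finsupp.sum, Finset.mul_sum]
    exact Finset.sum_congr rfl fun g _ => (mul_assoc _ _ _).symm

theorem cred_subset (G : Type) [Group G] : (P089.Cred G : Set (Op G)) ⊆ ReducedCStar G :=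
  closure_mono fun T hT => isGroupRingElement_of_mem T hT

/-- **There is a finitely generated group `G` and a projection `p` in `C_r^*(G)` whose canonical
trace is irrational.** -/
theorem result : ∃ (G : Type) (_ : Group G), Group.FG G ∧
    ∃ p : Op G, p ∈ ReducedCStar G ∧ IsIdem p ∧ IsSelfAdj p ∧
      ∃ t : ℝ, Irrational t ∧ canonicalTrace p = (t : ℂ) := by
  obtain ⟨G, iG, hFG, p, hp, hpp, hsa, hirr, -⟩ := P089.counter2'
  refine ⟨G, iG, hFG, p, cred_subset G hp, ?_, fun ξ η => hsa ξ η,
    (inner ℂ (p (P089.dl 1)) (P089.dl 1 : P089.HH G)).re, hirr, ?_⟩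
  · intro ξ
    exact congrArg (fun T : Op G => T ξ) hpp
  · have h1 : canonicalTrace p = inner ℂ (P089.dl 1 : P089.HH G) (p (P089.dl 1)) := rfl
    have h2 : inner ℂ (P089.dl 1 : P089.HH G) (p (P089.dl 1)) =
        inner ℂ (p (P089.dl 1)) (P089.dl 1 : P089.HH G) := (hsa _ _).symm
    have h3 : (starRingEnd ℂ) (inner ℂ (p (P089.dl 1)) (P089.dl 1 : P089.HH G)) =
        inner ℂ (p (P089.dl 1)) (P089.dl 1 : P089.HH G) := by
      rw [inner_conj_symm, h2]
    rw [h1, h2]
    exact (Complex.conj_eq_iff_re.1 h3).symm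

end

end Vale.Agent.Results.P089.IrrationalTrace
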