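import Vale.Agent.Lib.P089.AM.Bridge
import Vale.Agent.Lib.P089.AM.Final

/-!
# P089, Q1: the Baum-Connes conjecture without coefficients is false

For ONE finitely generated group `G`:
(a) the reduced group C*-algebra `C*_r(G)` contains a projection with irrational canonical trace;
(b) some class of `K_0(C*_r(G))` is not in the range of the assembly map `μ_0^G`.
-/

namespace Vale.Agent.Results.P089.OneGroup

open P089.Asm
open scoped NNReal

noncomputable section

/-- the reduced group C*-algebra: the norm closure of the linear span of the left translations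
`δ_h ↦ δ_(g h)` of `ℓ²(G)` -/
def RedCStar (G : Type) [Group G] : Set (Op G) :=
  closure (Submodule.span ℂ {T : Op G | ∃ g : G, ∀ h : G, T.fn (bv h) = bv (g * h)})

/-- `p` is a projection: `p² = p = p*` -/
def IsProj {I : Type} (p : Op I) : Prop := p * p = p ∧ ∀ i j, ent p i j = star (ent p j i)

/-- the assembly map on cycles: evaluation at `0` of `[p] - [q]`, a cycle of the localization
algebra of the Rips complex `P_F(G)` -/
def mu {G : Type} [Group G] (F : Finset G) (x : KCyc (Loc F)) : KCyc (RoeG G) :=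
  x.map (Pi.evalAlgHom ℂ (fun _ : ℝ≥0 => Op (Bas G)) 0) (ev_mem F)

open scoped Classical in
private theorem not_onto {G : Type} [Group G] {p : P089.HH G →L[ℂ] P089.HH G}
    (hp : p ∈ P089.Cred G) (hpp : p * p = p) {z : ℕ → G} (hzi : Function.Injective z)
    (hz1 : ∀ n, z n ≠ 1) (hzz : ∀ n, z n * z n = 1) (hzc : ∀ n g, z n * g = g * z n)
    (hzp : ∀ n, inner ℂ (p (P089.dl 1)) (P089.dl (z n) : P089.HH G) ≠ 0) :
    ¬ Function.Surjective (P089.AM.assembly G) := by
  intro hsurj
  obtain ⟨s, hs, hs2, hs3⟩ := P089.AM.partJ G p hp hpp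
  obtain ⟨⟨F, x⟩, hx⟩ := hsurj (Quot.mk _ (P089.AM.projCyc s hs))
  obtain ⟨n, hn⟩ : ∃ n, z n ∉ F := by
    by_contra hcon
    push Not at hcon
    exact Set.infinite_univ.mono (fun n _ => hcon n) |>.elim ((F.finite_toSet.preimage hzi.injOn))
  have h5 := P089.AM.partStar P089.AM.partCl P089.AM.partTr P089.AM.partRoe P089.AM.partK
    G (z n) (hzc n) (hzz n) (hz1 n) F hn x s hs {P089.AM.w0 G} hs2 hx {P089.AM.w0 G}
    (Finset.Subset.refl _)
  rw [hs3] at h5
  refine hzp n ?_
  unfold P089.dl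
  rw [lp.inner_single_right]
  change inner ℂ (p (P089.dl 1) (z n)) (1 : ℂ) = 0
  rw [h5, inner_zero_left]

open scoped Classical in
private theorem ent_eq {I : Type} (T : lp (fun _ : I => ℂ) 2 →L[ℂ] lp (fun _ : I => ℂ) 2)
    (i j : I) : ent (show Op I from T) i j =
      inner ℂ (lp.single 2 i (1 : ℂ)) (T (lp.single 2 j (1 : ℂ))) := by
  rw [lp.inner_single_left]
  change _ = inner ℂ (1 : ℂ) ((T (lp.single 2 j (1 : ℂ))) i)
  rw [RCLike.inner_apply, map_one, mul_one]
  rfl

open scoped Classical in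
private theorem ent_star {I : Type} (T : lp (fun _ : I => ℂ) 2 →L[ℂ] lp (fun _ : I => ℂ) 2)
    (h : ∀ x y : lp (fun _ : I => ℂ) 2, inner ℂ (T x) y = inner ℂ x (T y)) (i j : I) :
    ent (show Op I from T) i j = star (ent (show Op I from T) j i) := by
  rw [ent_eq, ent_eq, ← h]
  exact (inner_conj_symm (𝕜 := ℂ) (T (lp.single 2 i (1 : ℂ)))
    (lp.single 2 j (1 : ℂ) : lp (fun _ : I => ℂ) 2)).symm

/-- **There is a finitely generated group `G` such that `C*_r(G)` contains a projection with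
irrational canonical trace, and the assembly map `lim_F K_0(C*_L(P_F(G))^G) → K_0(C*_r(G))` is not
surjective: some class of `K_0(C*_r(G))` is not the class of an evaluated cycle.** -/
theorem result : ∃ (G : Type) (_ : Group G), Group.FG G ∧
    (∃ p ∈ RedCStar G, IsProj p ∧ ∃ t : ℝ, Irrational t ∧ ent p 1 1 = (t : ℂ)) ∧
    ∃ y : KCyc (RoeG G), ∀ (F : Finset G) (x : KCyc (Loc F)), ¬ KRel (mu F x) y := by
  obtain ⟨G, iG, hFG, p, hp, hpp, hsa, hirr, z, hzi, hz1, hzz, hzc, hzp⟩ := P089.counter2'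
  refine ⟨G, iG, hFG, ⟨p, ?_, ⟨hpp, ?_⟩, _, hirr, ?_⟩, ?_⟩
  · have h1 : (Set.range (P089.lam : G → (P089.HH G →L[ℂ] P089.HH G))) ⊆
        {T : Op G | ∃ g : G, ∀ h : G, T.fn (bv h) = bv (g * h)} := by
      rintro _ ⟨g, rfl⟩
      exact ⟨g, fun h => P089.lam_dl g h⟩
    exact closure_mono (Submodule.span_mono h1) hp
  · exact fun i j => ent_star p hsa i j
  · have e1 := ent_eq (I := G) p 1 1
    have h2 : inner ℂ (P089.dl 1 : P089.HH G) (p (P089.dl 1)) =
        inner ℂ (p (P089.dl 1)) (P089.dl 1 : P089.HH G) := (hsa _ _).symm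
    have h3 : (starRingEnd ℂ) (inner ℂ (p (P089.dl 1)) (P089.dl 1 : P089.HH G)) =
        inner ℂ (p (P089.dl 1)) (P089.dl 1 : P089.HH G) := by
      rw [inner_conj_symm, h2]
    refine e1.trans (h2.trans ?_)
    exact (Complex.conj_eq_iff_re.1 h3).symm
  · have h1 : ¬ Function.Surjective (assembly G) := fun hs =>
      not_onto hp hpp hzi hz1 hzz hzc hzp (bridge G hs)
    rw [Function.Surjective] at h1
    push Not at h1
    obtain ⟨y, hy⟩ := h1
    obtain ⟨y0, rfl⟩ := Quot.exists_rep y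
    exact ⟨y0, fun F x hxy => hy ⟨F, Quot.mk _ x⟩ (Quot.sound hxy)⟩

end

end Vale.Agent.Results.P089.OneGroup
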