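import Vale.Agent.Lib.P089.Main

/-!
# P089: a projection in a reduced group C*-algebra with irrational canonical trace and with
nonzero traces at infinitely many central involutions

Third statement, without definitions of its own, in terms of convolution of functions.
-/

namespace Vale.Agent.Results.P089.TraceSupport

open scoped Classical

theorem lam_mem {G : Type} [Group G] (T : P089.HH G →L[ℂ] P089.HH G)
    (hT : T ∈ Submodule.span ℂ (Set.range (P089.lam : G → P089.HH G →L[ℂ] P089.HH G))) :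
    ∃ c : G →₀ ℂ, ∀ (ξ : P089.HH G) (h : G), T ξ h = c.sum fun g a => a * ξ (g⁻¹ * h) := by
  induction hT using Submodule.span_induction with
  | mem x hx =>
    obtain ⟨g, rfl⟩ := hx
    refine ⟨Finsupp.single g 1, fun ξ h => ?_⟩
    rw [Finsupp.sum_single_index (by rw [zero_mul]), one_mul]
    exact P089.lam_apply g ξ h
  | zero =>
    refine ⟨0, fun ξ h => ?_⟩
    rw [Finsupp.sum_zero_index]
    rfl
  | add x y _ _ hx hy =>
    obtain ⟨c, hc⟩ := hx
    obtain ⟨c', hc'⟩ := hy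
    refine ⟨c + c', fun ξ h => ?_⟩
    rw [Finsupp.sum_add_index' (fun g => by rw [zero_mul]) (fun g a b => by rw [add_mul]),
      ← hc ξ h, ← hc' ξ h]
    rfl
  | smul a x _ hx =>
    obtain ⟨c, hc⟩ := hx
    refine ⟨a • c, fun ξ h => ?_⟩
    rw [Finsupp.sum_smul_index (fun g => by rw [zero_mul])]
    have h1 : (a • x) ξ h = a * x ξ h := rfl
    rw [h1, hc ξ h, Finsupp.sum, Finsupp.sum, Finset.mul_sum]
    exact Finset.sum_congr rfl fun g _ => (mul_assoc _ _ _).symm

theorem inner_dl {G : Type} (g : G) (x : P089.HH G) :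
    inner ℂ (P089.dl g : P089.HH G) x = x g := by
  unfold P089.dl
  rw [lp.inner_single_left]
  change inner ℂ (1 : ℂ) (x g) = _
  rw [RCLike.inner_apply, map_one, mul_one]

theorem dl_apply {G : Type} (g h : G) : (P089.dl g : P089.HH G) h = if h = g then 1 else 0 := by
  unfold P089.dl
  rw [lp.single_apply]
  by_cases e : h = g
  · subst e; rw [Pi.single_eq_same, if_pos rfl]
  · rw [Pi.single_eq_of_ne e, if_neg e]

/-- matrix entries of a group ring element: `(T δ_g)(h) = c (h g⁻¹)` -/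
theorem ent_of_sum {G : Type} [Group G] (T : P089.HH G →L[ℂ] P089.HH G) (c : G →₀ ℂ)
    (hc : ∀ (ξ : P089.HH G) (h : G), T ξ h = c.sum fun g a => a * ξ (g⁻¹ * h)) (g h : G) :
    T (P089.dl g) h = c (h * g⁻¹) := by
  rw [hc, Finsupp.sum]
  have h1 : ∀ k ∈ c.support, c k * (P089.dl g : P089.HH G) (k⁻¹ * h) =
      if k = h * g⁻¹ then c k else 0 := fun k _ => by
    rw [dl_apply]
    have h2 : (k⁻¹ * h = g) ↔ k = h * g⁻¹ := by
      constructor
      · intro e; rw [← e]; group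
      · intro e; rw [e]; group
    by_cases e : k = h * g⁻¹
    · rw [if_pos e, if_pos (h2.2 e), mul_one]
    · rw [if_neg e, if_neg (fun e' => e (h2.1 e')), mul_zero]
  rw [Finset.sum_congr rfl h1, Finset.sum_ite_eq']
  split_ifs with h3
  · rfl
  · exact (Finsupp.notMem_support_iff.1 h3).symm

theorem ent_closure {G : Type} [Group G] (p : P089.HH G →L[ℂ] P089.HH G) (hp : p ∈ P089.Cred G)
    (g h : G) : p (P089.dl g) h = p (P089.dl 1) (h * g⁻¹) := by
  have hcl : IsClosed {T : P089.HH G →L[ℂ] P089.HH G |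
      inner ℂ (P089.dl h : P089.HH G) (T (P089.dl g)) =
      inner ℂ (P089.dl (h * g⁻¹) : P089.HH G) (T (P089.dl 1))} := by
    refine isClosed_eq ?_ ?_
    · exact continuous_const.inner (ContinuousLinearMap.apply ℂ _ (P089.dl g)).continuous
    · exact continuous_const.inner (ContinuousLinearMap.apply ℂ _ (P089.dl 1)).continuous
  have h1 := hcl.closure_subset_iff.2 (fun T hT => ?_) hp
  · have h2 : inner ℂ (P089.dl h : P089.HH G) (p (P089.dl g)) =
      inner ℂ (P089.dl (h * g⁻¹) : P089.HH G) (p (P089.dl 1)) := h1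
    rw [inner_dl, inner_dl] at h2
    exact h2
  · obtain ⟨c, hc⟩ := lam_mem T hT
    change inner ℂ (P089.dl h : P089.HH G) (T (P089.dl g)) =
      inner ℂ (P089.dl (h * g⁻¹) : P089.HH G) (T (P089.dl 1))
    rw [inner_dl, inner_dl, ent_of_sum T c hc, ent_of_sum T c hc, inv_one, mul_one]

/-- the vector of a finitely supported function -/
noncomputable def vec {G : Type} (ξ : G →₀ ℂ) : P089.HH G := ξ.sum fun g a => a • P089.dl g

theorem map_vec {G : Type} (T : P089.HH G →L[ℂ] P089.HH G) (ξ : G →₀ ℂ) (h : G) :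
    T (vec ξ) h = ξ.sum fun g a => T (P089.dl g) h * a := by
  rw [← inner_dl, vec, Finsupp.sum, map_sum, inner_sum, Finsupp.sum]
  refine Finset.sum_congr rfl fun g _ => ?_
  rw [map_smul, inner_smul_right, inner_dl, mul_comm]

theorem norm_vec {G : Type} (ξ : G →₀ ℂ) : ‖vec ξ‖ ^ 2 = ξ.sum fun _ a => ‖a‖ ^ 2 := by
  have h1 : ∀ h, (vec ξ : P089.HH G) h = ξ h := fun h => by
    rw [← inner_dl, vec, Finsupp.sum, inner_sum]
    have h2 : ∀ g ∈ ξ.support, inner ℂ (P089.dl h : P089.HH G) (ξ g • P089.dl g) =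
        if g = h then ξ g else 0 := fun g _ => by
      rw [inner_smul_right, inner_dl, dl_apply]
      by_cases e : g = h
      · rw [if_pos e, if_pos e.symm, mul_one]
      · rw [if_neg e, if_neg (fun e' => e e'.symm), mul_zero]
    rw [Finset.sum_congr rfl h2, Finset.sum_ite_eq']
    split_ifs with h3
    · rfl
    · exact (Finsupp.notMem_support_iff.1 h3).symm
  have hp : 0 < (2 : ENNReal).toReal := by norm_num
  have h3 := lp.norm_rpow_eq_tsum hp (vec ξ)
  have h4 : (2 : ENNReal).toReal = ((2 : ℕ) : ℝ) := by norm_num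
  rw [h4] at h3
  simp only [Real.rpow_natCast] at h3
  rw [h3, Finsupp.sum, tsum_eq_sum (s := ξ.support)]
  · exact Finset.sum_congr rfl fun g _ => by rw [h1]
  · intro g hg
    rw [h1, Finsupp.notMem_support_iff.1 hg, norm_zero]
    norm_num

theorem sum_le {G : Type} (x : P089.HH G) (F : Finset G) : ∑ h ∈ F, ‖x h‖ ^ 2 ≤ ‖x‖ ^ 2 := by
  have hp : 0 < (2 : ENNReal).toReal := by norm_num
  have h3 := lp.norm_rpow_eq_tsum hp x
  have hs := (lp.memℓp x).summable hp
  have h4 : (2 : ENNReal).toReal = ((2 : ℕ) : ℝ) := by norm_num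
  rw [h4] at h3 hs
  simp only [Real.rpow_natCast] at h3 hs
  rw [h3]
  exact hs.sum_le_tsum F fun g _ => by positivity

/-- There is a finitely generated group `G` and a self-adjoint idempotent `f` of its reduced
C*-algebra (a function on `G` whose left convolution operator is a norm limit of those of
finitely supported functions), with `f 1` irrational and `f z ≠ 0` for infinitely many central
elements `z` with `z² = 1`. -/
theorem result : ∃ (G : Type) (_ : Group G), Group.FG G ∧ ∃ f : G → ℂ,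
    (∀ ε : ℝ, 0 < ε → ∃ c : G →₀ ℂ, ∀ (ξ : G →₀ ℂ) (F : Finset G),
      ∑ h ∈ F, ‖ξ.sum fun g a => (f (h * g⁻¹) - c (h * g⁻¹)) * a‖ ^ 2 ≤
        ε ^ 2 * ξ.sum fun _ a => ‖a‖ ^ 2) ∧
    (∀ g, f g⁻¹ = (starRingEnd ℂ) (f g)) ∧
    (∀ h, HasSum (fun g => f (h * g⁻¹) * f g) (f h)) ∧
    (∃ t : ℝ, Irrational t ∧ f 1 = (t : ℂ)) ∧
    {z : G | z ∈ Subgroup.center G ∧ z * z = 1 ∧ f z ≠ 0}.Infinite := by
  obtain ⟨G, iG, hFG, p, hp, hpp, hsa, hirr, z, hzi, hz1, hzz, hzc, hz0⟩ := P089.counter2'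
  have key : ∀ g : G, inner ℂ (p (P089.dl 1)) (P089.dl g : P089.HH G) =
      (starRingEnd ℂ) (p (P089.dl 1) g) := fun g => by
    rw [← inner_conj_symm, inner_dl]
  have hstar : ∀ g : G, p (P089.dl 1) g⁻¹ = (starRingEnd ℂ) (p (P089.dl 1) g) := fun g => by
    have h1 := hsa (P089.dl 1) (P089.dl g)
    rw [key, inner_dl] at h1
    rw [h1, ent_closure p hp g 1, one_mul]
  refine ⟨G, iG, hFG, fun g => p (P089.dl 1) g, fun ε hε => ?_, fun g => ?_, fun h => ?_,
    ⟨(inner ℂ (p (P089.dl 1)) (P089.dl 1 : P089.HH G)).re, hirr, ?_⟩, ?_⟩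
  · obtain ⟨T, hT, hTp⟩ := Metric.mem_closure_iff.1 hp ε hε
    obtain ⟨c, hc⟩ := lam_mem T hT
    refine ⟨c, fun ξ F => ?_⟩
    have h1 : ∀ h, (ξ.sum fun g a => (p (P089.dl 1) (h * g⁻¹) - c (h * g⁻¹)) * a) =
        (p - T) (vec ξ) h := fun h => by
      rw [map_vec]
      refine Finsupp.sum_congr fun g _ => ?_
      have h2 : (p - T) (P089.dl g) h = p (P089.dl g) h - T (P089.dl g) h := rfl
      rw [h2, ent_closure p hp g h, ent_of_sum T c hc g h]
    have h3 : ‖(p - T) (vec ξ)‖ ≤ ε * ‖vec ξ‖ := by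
      refine ((p - T).le_opNorm _).trans (mul_le_mul_of_nonneg_right ?_ (norm_nonneg _))
      rw [← dist_eq_norm]
      exact hTp.le
    calc ∑ h ∈ F, ‖ξ.sum fun g a => (p (P089.dl 1) (h * g⁻¹) - c (h * g⁻¹)) * a‖ ^ 2
        = ∑ h ∈ F, ‖(p - T) (vec ξ) h‖ ^ 2 := Finset.sum_congr rfl fun h _ => by rw [h1]
      _ ≤ ‖(p - T) (vec ξ)‖ ^ 2 := sum_le _ _
      _ ≤ (ε * ‖vec ξ‖) ^ 2 := by gcongr
      _ = ε ^ 2 * ξ.sum fun _ a => ‖a‖ ^ 2 := by rw [mul_pow, norm_vec]
  · exact hstar g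
  · have h1 := lp.hasSum_inner (𝕜 := ℂ) (p (P089.dl h)) (p (P089.dl 1) : P089.HH G)
    have h2 : inner ℂ (p (P089.dl h)) (p (P089.dl 1) : P089.HH G) = p (P089.dl 1) h := by
      rw [hsa, inner_dl]
      exact congrArg (fun T : P089.HH G →L[ℂ] P089.HH G => T (P089.dl 1) h) hpp
    rw [h2] at h1
    refine h1.congr_fun fun g => ?_
    have h3 : inner ℂ (p (P089.dl h) g) (p (P089.dl 1) g) =
        p (P089.dl 1) g * (starRingEnd ℂ) (p (P089.dl h) g) := rfl
    rw [h3, ent_closure p hp h g]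
    have h4 := hstar (g * h⁻¹)
    rw [mul_inv_rev, inv_inv] at h4
    rw [← h4, mul_comm]
  · have h1 : inner ℂ (p (P089.dl 1)) (P089.dl 1 : P089.HH G) =
        (starRingEnd ℂ) (inner ℂ (p (P089.dl 1)) (P089.dl 1 : P089.HH G)) := by
      rw [inner_conj_symm]
      exact hsa _ _
    have h2 := Complex.conj_eq_iff_re.1 h1.symm
    have h3 : p (P089.dl 1) 1 = (starRingEnd ℂ) (inner ℂ (p (P089.dl 1)) (P089.dl 1 : P089.HH G)) := by
      rw [key 1, Complex.conj_conj]
    change p (P089.dl 1) 1 = _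
    rw [h3, ← h1]
    exact h2.symm
  · refine Set.infinite_of_injective_forall_mem hzi fun n => ⟨?_, hzz n, fun h0 => hz0 n ?_⟩
    · exact Subgroup.mem_center_iff.2 fun g => (hzc n g).symm
    · have h0' : p (P089.dl 1) (z n) = 0 := h0
      rw [key, h0', map_zero]

end Vale.Agent.Results.P089.TraceSupport
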